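import Vale.Agent.P291.HCore

/-!
# N5: dimension vectors and numbers of weights
-/

open MvPolynomial

set_option linter.unusedSectionVars false

namespace Vale.Agent.P291.N5

variable {I E B Λ : Type*} [Fintype E] [DecidableEq I] [Fintype B] [DecidableEq B] [CommRing Λ]
  [IsDomain Λ]
variable (Q : QD I E B Λ)

/-- number of boxes at a vertex -/
def nb (i : I) : ℕ := (Finset.univ.filter fun b => Q.vx b = i).card

/-- number of boxes at an extended vertex -/
def no : Option I → ℕ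
  | none => 1
  | some i => nb Q i

/-- number of boxes of `U` at a vertex -/
def nU (U : Finset B) (i : I) : ℕ := (U.filter fun b => Q.vx b = i).card

/-- same, zero at the framing vertex -/
def nUo (U : Finset B) : Option I → ℕ
  | none => 0
  | some i => nU Q U i

/-- same, one at the framing vertex -/
def nUf (U : Finset B) : Option I → ℕ
  | none => 1
  | some i => nU Q U i

theorem card_filter_vo (U : Finset B) (j : Option I) :
    (Finset.univ.filter fun o : Option B => Q.vo o = j ∧ ∀ b, o = some b → b ∈ U).card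
      = nUf Q U j := by
  rcases j with _ | i
  · have : (Finset.univ.filter fun o : Option B => Q.vo o = none ∧ ∀ b, o = some b → b ∈ U)
        = {none} := by
      ext o
      rcases o with _ | b
      · simp [QD.vo]
      · simp [QD.vo]
    rw [this]; rfl
  · have : (Finset.univ.filter fun o : Option B => Q.vo o = some i ∧ ∀ b, o = some b → b ∈ U)
        = (U.filter fun b => Q.vx b = i).map Function.Embedding.some := by
      ext o
      rcases o with _ | b
      · simp [QD.vo]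
      · simp [QD.vo, and_comm]
    rw [this, Finset.card_map]; rfl

theorem card_filter_vo' (U : Finset B) (j : Option I) :
    (Finset.univ.filter fun o : Option B => Q.vo o = j ∧ ∃ b ∈ U, o = some b).card
      = nUo Q U j := by
  rcases j with _ | i
  · have : (Finset.univ.filter fun o : Option B => Q.vo o = none ∧ ∃ b ∈ U, o = some b)
        = ∅ := by
      ext o
      rcases o with _ | b
      · simp [QD.vo]
      · simp [QD.vo]
    rw [this]; rfl
  · have : (Finset.univ.filter fun o : Option B => Q.vo o = some i ∧ ∃ b ∈ U, o = some b)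
        = (U.filter fun b => Q.vx b = i).map Function.Embedding.some := by
      ext o
      rcases o with _ | b
      · simp [QD.vo]
      · simp [QD.vo, and_comm]
    rw [this, Finset.card_map]; rfl

theorem card_prod_filter (P : E → B → Prop) (R : E → Option B → Prop)
    [∀ a, DecidablePred (P a)] [∀ a, DecidablePred (R a)]
    [DecidablePred fun p : E × B × Option B => P p.1 p.2.1 ∧ R p.1 p.2.2] :
    (Finset.univ.filter fun p : E × B × Option B => P p.1 p.2.1 ∧ R p.1 p.2.2).card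
      = ∑ a, (Finset.univ.filter (P a)).card * (Finset.univ.filter (R a)).card := by
  rw [Finset.card_filter, Fintype.sum_prod_type]
  refine Finset.sum_congr rfl fun a _ => ?_
  rw [Fintype.sum_prod_type, Finset.card_filter, Finset.card_filter, Finset.sum_mul_sum]
  refine Finset.sum_congr rfl fun b _ => Finset.sum_congr rfl fun o _ => ?_
  by_cases h1 : P a b <;> by_cases h2 : R a o <;> simp [h1, h2]

theorem card_Wt : Q.Wt.card = ∑ a, nb Q (Q.src a) * no Q (Q.tgt a) := by
  classical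
  unfold QD.Wt
  rw [card_prod_filter (fun a b => Q.vx b = Q.src a) (fun a o => Q.vo o = Q.tgt a)]
  refine Finset.sum_congr rfl fun a _ => ?_
  congr 1
  have := card_filter_vo Q Finset.univ (Q.tgt a)
  simp only [Finset.mem_univ, implies_true, and_true] at this
  rw [this]
  rcases Q.tgt a with _ | i <;> rfl

theorem card_Prs [Fintype I] : Q.Prs.card = ∑ i, nb Q i * nb Q i := by
  classical
  unfold QD.Prs nb
  rw [Finset.card_filter, Fintype.sum_prod_type]
  have : ∀ i, (Finset.univ.filter fun b => Q.vx b = i).card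
      * (Finset.univ.filter fun b => Q.vx b = i).card
      = ∑ b, ∑ c, if Q.vx b = i ∧ Q.vx c = i then 1 else 0 := by
    intro i
    rw [Finset.card_filter, Finset.sum_mul_sum]
    refine Finset.sum_congr rfl fun b _ => Finset.sum_congr rfl fun o _ => ?_
    by_cases h1 : Q.vx b = i <;> by_cases h2 : Q.vx o = i <;> simp [h1, h2]
  simp only [this]
  symm
  rw [Finset.sum_comm]
  refine Finset.sum_congr rfl fun b _ => ?_
  rw [Finset.sum_comm]
  refine Finset.sum_congr rfl fun c _ => ?_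
  by_cases h : Q.vx b = Q.vx c
  · rw [if_pos h, Finset.sum_eq_single (Q.vx b)]
    · simp [h]
    · intro i _ hi
      rw [if_neg]; rintro ⟨h1, _⟩; exact hi h1.symm
    · intro h; exact absurd (Finset.mem_univ _) h
  · rw [if_neg h, Finset.sum_eq_zero]
    intro i _
    rw [if_neg]; rintro ⟨h1, h2⟩; exact h (h1.trans h2.symm)

theorem nb_split (U : Finset B) (i : I) : nb Q i = nU Q U i + nU Q Uᶜ i := by
  unfold nb nU
  rw [← Finset.card_union_of_disjoint]
  · congr 1
    ext b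
    simp only [Finset.mem_filter, Finset.mem_univ, true_and, Finset.mem_union, Finset.mem_compl]
    tauto
  · rw [Finset.disjoint_left]
    intro b h1 h2
    simp only [Finset.mem_filter, Finset.mem_compl] at h1 h2
    exact h2.1 h1.1

theorem nb_rst (U : Finset B) (i : I) : nb (Q.rst U) i = nU Q U i := by
  unfold nb nU QD.rst
  rw [← Finset.card_map (Function.Embedding.subtype (fun b => b ∈ U))]
  congr 1
  ext b
  simp only [Finset.mem_map, Finset.mem_filter, Finset.mem_univ, true_and,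
    Function.Embedding.subtype_apply, Subtype.exists, exists_and_right, exists_eq_right]
  constructor
  · rintro ⟨h1, h2⟩; exact ⟨h1, h2⟩
  · rintro ⟨h1, h2⟩; exact ⟨h1, h2⟩

/-- number of weights crossing the cut -/
theorem card_cross (U : Finset B) : (Q.Wt.filter fun p =>
      QD.ind U p.2.1 ≠ p.2.2.elim 0 (QD.ind U)).card
    = ∑ a, (nU Q U (Q.src a) * nUf Q Uᶜ (Q.tgt a) + nU Q Uᶜ (Q.src a) * nUo Q U (Q.tgt a)) := by
  classical
  have h1 : (Q.Wt.filter fun p => QD.ind U p.2.1 ≠ p.2.2.elim 0 (QD.ind U))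
      = (Finset.univ.filter fun p : E × B × Option B =>
          (Q.vx p.2.1 = Q.src p.1 ∧ p.2.1 ∈ U) ∧
          (Q.vo p.2.2 = Q.tgt p.1 ∧ ∀ b, p.2.2 = some b → b ∈ Uᶜ)) ∪
        (Finset.univ.filter fun p : E × B × Option B =>
          (Q.vx p.2.1 = Q.src p.1 ∧ p.2.1 ∈ Uᶜ) ∧
          (Q.vo p.2.2 = Q.tgt p.1 ∧ ∃ b ∈ U, p.2.2 = some b)) := by
    ext ⟨a, b, o⟩
    unfold QD.Wt
    rw [Finset.mem_filter, Finset.mem_filter, Finset.mem_union, Finset.mem_filter,
      Finset.mem_filter]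
    simp only [Finset.mem_univ, true_and, Finset.mem_compl, QD.ind]
    rcases o with _ | c
    · by_cases hb : b ∈ U <;> simp [hb]
    · by_cases hb : b ∈ U <;> by_cases hc : c ∈ U <;> simp [QD.ind, hb, hc]
  have hd : Disjoint (Finset.univ.filter fun p : E × B × Option B =>
          (Q.vx p.2.1 = Q.src p.1 ∧ p.2.1 ∈ U) ∧
          (Q.vo p.2.2 = Q.tgt p.1 ∧ ∀ b, p.2.2 = some b → b ∈ Uᶜ))
        (Finset.univ.filter fun p : E × B × Option B =>
          (Q.vx p.2.1 = Q.src p.1 ∧ p.2.1 ∈ Uᶜ) ∧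
          (Q.vo p.2.2 = Q.tgt p.1 ∧ ∃ b ∈ U, p.2.2 = some b)) := by
    rw [Finset.disjoint_left]
    rintro p h1 h2
    simp only [Finset.mem_filter, Finset.mem_univ, true_and, Finset.mem_compl] at h1 h2
    exact h2.1.2 h1.1.2
  rw [h1, Finset.card_union_of_disjoint hd,
    card_prod_filter (fun a b => Q.vx b = Q.src a ∧ b ∈ U)
      (fun a o => Q.vo o = Q.tgt a ∧ ∀ b, o = some b → b ∈ Uᶜ),
    card_prod_filter (fun a b => Q.vx b = Q.src a ∧ b ∈ Uᶜ)
      (fun a o => Q.vo o = Q.tgt a ∧ ∃ b ∈ U, o = some b), ← Finset.sum_add_distrib]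
  refine Finset.sum_congr rfl fun a _ => ?_
  rw [card_filter_vo, card_filter_vo']
  have e : ∀ U : Finset B, (Finset.univ.filter fun b => Q.vx b = Q.src a ∧ b ∈ U).card
      = nU Q U (Q.src a) := by
    intro U
    unfold nU
    congr 1
    ext b
    simp [and_comm]
  rw [e, e]

theorem card_crossP [Fintype I] (U : Finset B) : (Q.Prs.filter fun p =>
      QD.ind U p.1 ≠ QD.ind U p.2).card = ∑ i, 2 * (nU Q U i * nU Q Uᶜ i) := by
  classical
  have h0 : ∀ (R : B → B → Prop) [∀ b c, Decidable (R b c)]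
      [DecidablePred fun p : B × B => R p.1 p.2],
      (Finset.univ.filter fun p : B × B => R p.1 p.2).card
        = ∑ b, ∑ c, if R b c then 1 else 0 := by
    intro R _ _
    rw [Finset.card_filter, Fintype.sum_prod_type]
    refine Finset.sum_congr rfl fun b _ => Finset.sum_congr rfl fun c _ => ?_
    congr
  have h1 : (Q.Prs.filter fun p => QD.ind U p.1 ≠ QD.ind U p.2)
      = (Finset.univ.filter fun p : B × B => Q.vx p.1 = Q.vx p.2 ∧
          ((p.1 ∈ U ∧ p.2 ∈ Uᶜ) ∨ (p.1 ∈ Uᶜ ∧ p.2 ∈ U))) := by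
    ext ⟨b, c⟩
    unfold QD.Prs
    rw [Finset.mem_filter, Finset.mem_filter, Finset.mem_filter]
    simp only [Finset.mem_univ, true_and, Finset.mem_compl, QD.ind]
    by_cases hb : b ∈ U <;> by_cases hc : c ∈ U <;> simp [hb, hc]
  rw [h1, h0 (fun b c => Q.vx b = Q.vx c ∧ ((b ∈ U ∧ c ∈ Uᶜ) ∨ (b ∈ Uᶜ ∧ c ∈ U)))]
  have h2 : ∀ i, 2 * (nU Q U i * nU Q Uᶜ i) = ∑ b, ∑ c,
      if (Q.vx b = i ∧ Q.vx c = i) ∧ ((b ∈ U ∧ c ∈ Uᶜ) ∨ (b ∈ Uᶜ ∧ c ∈ U)) then 1 else 0 := by
    intro i
    have e : ∀ U : Finset B, nU Q U i = ∑ b, if Q.vx b = i ∧ b ∈ U then 1 else 0 := by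
      intro U
      unfold nU
      rw [← Finset.card_filter]
      congr 1
      ext b; simp [and_comm]
    have e2 : nU Q U i * nU Q Uᶜ i = ∑ b, ∑ c,
        if (Q.vx b = i ∧ Q.vx c = i) ∧ (b ∈ U ∧ c ∈ Uᶜ) then 1 else 0 := by
      rw [e, e, Finset.sum_mul_sum]
      refine Finset.sum_congr rfl fun b _ => Finset.sum_congr rfl fun c _ => ?_
      by_cases h1 : Q.vx b = i <;> by_cases h2 : Q.vx c = i <;> by_cases h3 : b ∈ U <;>
        by_cases h4 : c ∈ U <;> simp [h1, h2, h3, h4]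
    have e3 : nU Q U i * nU Q Uᶜ i = ∑ b, ∑ c,
        if (Q.vx b = i ∧ Q.vx c = i) ∧ (b ∈ Uᶜ ∧ c ∈ U) then 1 else 0 := by
      rw [mul_comm, e, e, Finset.sum_mul_sum]
      refine Finset.sum_congr rfl fun b _ => Finset.sum_congr rfl fun c _ => ?_
      by_cases h1 : Q.vx b = i <;> by_cases h2 : Q.vx c = i <;> by_cases h3 : b ∈ U <;>
        by_cases h4 : c ∈ U <;> simp [h1, h2, h3, h4]
    rw [two_mul]
    nth_rewrite 1 [e2]
    rw [e3, ← Finset.sum_add_distrib]
    refine Finset.sum_congr rfl fun b _ => ?_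
    rw [← Finset.sum_add_distrib]
    refine Finset.sum_congr rfl fun c _ => ?_
    by_cases h1 : Q.vx b = i <;> by_cases h2 : Q.vx c = i <;> by_cases h3 : b ∈ U <;>
        by_cases h4 : c ∈ U <;> simp [h1, h2, h3, h4]
  simp only [h2]
  symm
  rw [Finset.sum_comm]
  refine Finset.sum_congr rfl fun b _ => ?_
  rw [Finset.sum_comm]
  refine Finset.sum_congr rfl fun c _ => ?_
  by_cases h : Q.vx b = Q.vx c
  · rw [Finset.sum_eq_single (Q.vx b)]
    · simp [h]
    · intro i _ hi
      rw [if_neg]; rintro ⟨⟨h1, _⟩, _⟩; exact hi h1.symm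
    · intro h; exact absurd (Finset.mem_univ _) h
  · rw [if_neg (fun h' => h h'.1), Finset.sum_eq_zero]
    intro i _
    rw [if_neg]; rintro ⟨⟨h1, h2⟩, _⟩; exact h (h1.trans h2.symm)

theorem card_Wt_unf (U : Finset B) : (Q.rst U).unf.Wt.card
    = ∑ a, nU Q U (Q.src a) * nUo Q U (Q.tgt a) := by
  classical
  rw [card_Wt]
  have h1 : ∀ i, nb (Q.rst U).unf i = nU Q U i := fun i => nb_rst Q U i
  have h2 : ∀ a : {a : E // (Q.rst U).tgt a ≠ none}, nb (Q.rst U).unf ((Q.rst U).unf.src a)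
      * no (Q.rst U).unf ((Q.rst U).unf.tgt a) = nU Q U (Q.src a.1) * nUo Q U (Q.tgt a.1) := by
    rintro ⟨a, ha⟩
    have h3 : (Q.rst U).unf.tgt ⟨a, ha⟩ = Q.tgt a := rfl
    have h4 : (Q.rst U).unf.src ⟨a, ha⟩ = Q.src a := rfl
    rw [h1, h3, h4]
    congr 1
    have ha' : Q.tgt a ≠ none := ha
    rcases h5 : Q.tgt a with _ | i
    · exact absurd h5 ha'
    · exact h1 i
  rw [Finset.sum_congr rfl fun a _ => h2 a]
  have h6 := Finset.sum_subtype (F := inferInstance) (Finset.univ.filter fun a : E => Q.tgt a ≠ none)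
    (p := fun a => (Q.rst U).tgt a ≠ none) (by intro a; simp [QD.rst])
    (fun a => nU Q U (Q.src a) * nUo Q U (Q.tgt a))
  rw [← h6, Finset.sum_filter]
  refine Finset.sum_congr rfl fun a _ => ?_
  split_ifs with h
  · rfl
  · push Not at h
    rw [h]
    simp [nUo]

/-- expected dimension -/
def dd : ℤ := (Q.Wt.card : ℤ) - (Q.Prs.card : ℤ)

theorem dd_split [Fintype I] (U : Finset B) :
    dd Q = dd (Q.rst U).unf + dd (Q.rst Uᶜ) + Q.degK (QD.ind U) := by
  have p1 : (Q.rst U).unf.Prs.card = ∑ i, nU Q U i * nU Q U i := by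
    rw [card_Prs]
    exact Finset.sum_congr rfl fun i _ => by
      rw [show nb (Q.rst U).unf i = nU Q U i from nb_rst Q U i]
  have p2 : (Q.rst Uᶜ).Prs.card = ∑ i, nU Q Uᶜ i * nU Q Uᶜ i := by
    rw [card_Prs]
    exact Finset.sum_congr rfl fun i _ => by rw [nb_rst]
  have p3 : (Q.rst Uᶜ).Wt.card = ∑ a, nU Q Uᶜ (Q.src a) * nUf Q Uᶜ (Q.tgt a) := by
    rw [card_Wt]
    refine Finset.sum_congr rfl fun a _ => ?_
    have h3 : (Q.rst Uᶜ).tgt a = Q.tgt a := rfl
    have h4 : (Q.rst Uᶜ).src a = Q.src a := rfl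
    rw [h3, h4, nb_rst]
    congr 1
    rcases Q.tgt a with _ | i
    · rfl
    · exact nb_rst Q _ i
  have h0 : ∀ j, no Q j = nUo Q U j + nUf Q Uᶜ j := by
    rintro (_ | i)
    · rfl
    · exact nb_split Q U i
  unfold dd QD.degK
  rw [card_cross, card_crossP, card_Wt_unf, p1, p2, p3, card_Wt, card_Prs]
  push_cast
  simp only [h0, nb_split Q U]
  push_cast
  have e1 : ∀ (f g h : E → ℤ), ∑ a, f a + ∑ a, g a + ∑ a, h a = ∑ a, (f a + g a + h a) := by
    intro f g h; rw [Finset.sum_add_distrib, Finset.sum_add_distrib]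
  have e2 : (∑ x, ((nU Q U (Q.src x) : ℤ) + nU Q Uᶜ (Q.src x))
        * (nUo Q U (Q.tgt x) + nUf Q Uᶜ (Q.tgt x)))
      = ∑ a, (nU Q U (Q.src a) : ℤ) * nUo Q U (Q.tgt a)
        + ∑ a, (nU Q Uᶜ (Q.src a) : ℤ) * nUf Q Uᶜ (Q.tgt a)
        + ∑ a, ((nU Q U (Q.src a) : ℤ) * nUf Q Uᶜ (Q.tgt a)
          + nU Q Uᶜ (Q.src a) * nUo Q U (Q.tgt a)) := by
    rw [e1]
    exact Finset.sum_congr rfl fun a _ => by ring
  have e3 : (∑ x, ((nU Q U x : ℤ) + nU Q Uᶜ x) * (nU Q U x + nU Q Uᶜ x))
      = ∑ a, (nU Q U a : ℤ) * nU Q U a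
        + ∑ a, (nU Q Uᶜ a : ℤ) * nU Q Uᶜ a
        + ∑ a, 2 * ((nU Q U a : ℤ) * nU Q Uᶜ a) := by
    rw [← Finset.sum_add_distrib, ← Finset.sum_add_distrib]
    exact Finset.sum_congr rfl fun a _ => by ring
  rw [e2, e3]
  ring

end Vale.Agent.P291.N5
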