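import Mathlib

/-!
# Cauchy products over `ℤ`
-/

namespace Vale.Agent.P291.N5

theorem finite_of_summable (a : ℤ → ℕ) (c : ℝ) (hc : 0 < c)
    (h : Summable fun e => (a e : ℝ) * c) : (Function.support a).Finite := by
  have h1 := h.tendsto_cofinite_zero
  have h2 := h1.eventually (gt_mem_nhds hc)
  rw [Filter.eventually_cofinite] at h2
  refine h2.subset ?_
  intro e he
  simp only [Set.mem_ofPred_eq, not_lt]
  have : 1 ≤ a e := Nat.one_le_iff_ne_zero.2 he
  have h3 : (1 : ℝ) ≤ a e := by exact_mod_cast this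
  nlinarith

theorem cauchy (a h : ℤ → ℕ) (c : ℤ) (T : ℝ) (hT : 0 < T) (A H : ℝ)
    (hA : HasSum (fun e : ℤ => (a e : ℝ) * T ^ e) A)
    (hH : HasSum (fun e : ℤ => (h e : ℝ) * T ^ e) H) :
    HasSum (fun d : ℤ => ((∑ᶠ e : ℤ, a e * h (d - c - e) : ℕ) : ℝ) * T ^ d) (T ^ c * (A * H)) := by
  have hs : Summable fun p : ℤ × ℤ => ((a p.1 : ℝ) * T ^ p.1) * ((h p.2 : ℝ) * T ^ p.2) :=
    Summable.mul_of_nonneg hA.summable hH.summable
      (fun e => mul_nonneg (Nat.cast_nonneg _) (zpow_pos hT _).le)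
      (fun e => mul_nonneg (Nat.cast_nonneg _) (zpow_pos hT _).le)
  have h1 := hA.mul hH hs
  let φ : ℤ × ℤ ≃ ℤ × ℤ :=
    { toFun := fun p => (p.2, p.1 - c - p.2)
      invFun := fun p => (p.1 + p.2 + c, p.1)
      left_inv := fun p => by ext <;> simp
      right_inv := fun p => by ext <;> simp }
  have h2 := (φ.hasSum_iff).2 h1
  have h3 : ((fun p : ℤ × ℤ => ((a p.1 : ℝ) * T ^ p.1) * ((h p.2 : ℝ) * T ^ p.2)) ∘ φ)
      = fun p : ℤ × ℤ => ((a p.2 * h (p.1 - c - p.2) : ℕ) : ℝ) * T ^ (p.1 - c) := by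
    funext p
    simp only [Function.comp, φ, Equiv.coe_fn_mk]
    push_cast
    have : T ^ (p.1 - c) = T ^ p.2 * T ^ (p.1 - c - p.2) := by
      rw [← zpow_add₀ hT.ne']; congr 1; ring
    rw [this]; ring
  rw [h3] at h2
  have h4 : ∀ d : ℤ, HasSum (fun e : ℤ => ((a e * h (d - c - e) : ℕ) : ℝ) * T ^ (d - c))
      (((∑ᶠ e : ℤ, a e * h (d - c - e) : ℕ) : ℝ) * T ^ (d - c)) := by
    intro d
    have h5 : Summable (fun e : ℤ => ((a e * h (d - c - e) : ℕ) : ℝ) * T ^ (d - c)) :=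
      h2.summable.prod_factor d
    have h6 := finite_of_summable _ _ (zpow_pos hT (d - c)) h5
    have h7 : (∑ᶠ e : ℤ, a e * h (d - c - e) : ℕ) = ∑ e ∈ h6.toFinset, a e * h (d - c - e) :=
      finsum_eq_sum _ h6
    rw [h7]
    push_cast
    rw [Finset.sum_mul]
    have h8 : HasSum (fun e : ℤ => ((a e * h (d - c - e) : ℕ) : ℝ) * T ^ (d - c))
        (∑ e ∈ h6.toFinset, ((a e * h (d - c - e) : ℕ) : ℝ) * T ^ (d - c)) := by
      apply hasSum_sum_of_ne_finset_zero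
      intro e he
      rw [Set.Finite.mem_toFinset, Function.notMem_support] at he
      rw [he]; simp
    simpa using h8
  have h5 := h2.prod_fiberwise h4
  have h6 := h5.mul_left (T ^ c)
  have h7 : (fun d : ℤ => T ^ c * (((∑ᶠ e : ℤ, a e * h (d - c - e) : ℕ) : ℝ) * T ^ (d - c)))
      = fun d : ℤ => ((∑ᶠ e : ℤ, a e * h (d - c - e) : ℕ) : ℝ) * T ^ d := by
    funext d
    have : T ^ d = T ^ c * T ^ (d - c) := by
      rw [← zpow_add₀ hT.ne']; congr 1; ring
    rw [this]; ring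
  rw [h7] at h6
  exact h6

end Vale.Agent.P291.N5
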