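import Vale.Agent.P291.H415.N5.Trans

/-!
# N5: the number of weights and the orders of the representation spaces
-/

open MvPolynomial

set_option linter.unusedSectionVars false

namespace Vale.Agent.P291.N5

open N3 (Rep Red Lie Gau ST FV nz sz nz_rec ComNil card_rep card_lie finrank_FV dm)

variable {k : Type*} [Field k] [Finite k]
variable {I E B Λ : Type*} [Fintype E] [Fintype I] [DecidableEq I] [Fintype B] [DecidableEq B]
  [CommRing Λ] [IsDomain Λ]
variable (Q : QD I E B Λ)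

theorem no_eq (j : Option I) : no Q j = dm (dvec Q) 1 j := by
  rcases j with _ | i <;> rfl

theorem card_rep_dd : Nat.card (Rep k ⟨Q.src, Q.tgt⟩ (FV k (dvec Q) 1))
    = Nat.card k ^ Q.Wt.card := by
  rw [card_rep, card_Wt]
  congr 1
  refine Finset.sum_congr rfl fun a _ => ?_
  rw [finrank_FV, finrank_FV, no_eq]
  rfl

theorem card_lie_dd (w : ℕ) : Nat.card (Lie k (FV k (dvec Q) w))
    = Nat.card k ^ Q.Prs.card := by
  rw [card_lie, card_Prs]
  congr 1
  refine Finset.sum_congr rfl fun a _ => ?_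
  rw [finrank_FV]
  rfl

theorem card_Wt_unf' : Q.unf.Wt.card = ∑ a, dvec Q (Q.src a) * dm (dvec Q) 0 (Q.tgt a) := by
  classical
  rw [card_Wt]
  have h2 : ∀ a : {a : E // Q.tgt a ≠ none}, nb Q.unf (Q.unf.src a)
      * no Q.unf (Q.unf.tgt a) = dvec Q (Q.src a.1) * dm (dvec Q) 0 (Q.tgt a.1) := by
    rintro ⟨a, ha⟩
    have h3 : Q.unf.tgt ⟨a, ha⟩ = Q.tgt a := rfl
    have h4 : Q.unf.src ⟨a, ha⟩ = Q.src a := rfl
    rw [h3, h4]
    congr 1
    rcases h5 : Q.tgt a with _ | i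
    · exact absurd h5 ha
    · rfl
  rw [Finset.sum_congr rfl fun a _ => h2 a]
  have h6 := Finset.sum_subtype (F := inferInstance) (Finset.univ.filter fun a : E => Q.tgt a ≠ none)
    (p := fun a => Q.tgt a ≠ none) (by intro a; simp)
    (fun a => dvec Q (Q.src a) * dm (dvec Q) 0 (Q.tgt a))
  rw [← h6, Finset.sum_filter]
  refine Finset.sum_congr rfl fun a _ => ?_
  split_ifs with h
  · rfl
  · push Not at h
    rw [h]
    simp [dm]

theorem card_rep_dd_unf : Nat.card (Rep k ⟨Q.src, Q.tgt⟩ (FV k (dvec Q) 0))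
    = Nat.card k ^ Q.unf.Wt.card := by
  rw [card_rep, card_Wt_unf']
  congr 1
  refine Finset.sum_congr rfl fun a _ => ?_
  rw [finrank_FV, finrank_FV]
  rfl

theorem card_k_pos : (0 : ℝ) < Nat.card k := by
  have : Nontrivial k := inferInstance
  exact_mod_cast Nat.card_pos

theorem zpow_dd : ((Nat.card k : ℝ)⁻¹) ^ dd Q
    = (Nat.card (Lie k (FV k (dvec Q) 1)) : ℝ)
      / Nat.card (Rep k ⟨Q.src, Q.tgt⟩ (FV k (dvec Q) 1)) := by
  have hq : (Nat.card k : ℝ) ≠ 0 := (card_k_pos (k := k)).ne'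
  rw [card_rep_dd, card_lie_dd, dd, inv_zpow', neg_sub, zpow_sub₀ hq, zpow_natCast, zpow_natCast]
  push_cast
  rfl

theorem zpow_dd_unf : ((Nat.card k : ℝ)⁻¹) ^ dd Q.unf
    = (Nat.card (Lie k (FV k (dvec Q) 0)) : ℝ)
      / Nat.card (Rep k ⟨Q.src, Q.tgt⟩ (FV k (dvec Q) 0)) := by
  have hq : (Nat.card k : ℝ) ≠ 0 := (card_k_pos (k := k)).ne'
  have hP : Q.unf.Prs.card = Q.Prs.card := by
    rw [card_Prs, card_Prs]
    rfl
  rw [card_rep_dd_unf, card_lie_dd, dd, inv_zpow', neg_sub, zpow_sub₀ hq, zpow_natCast,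
    zpow_natCast, hP]
  push_cast
  rfl

/-- `sz · T^dd` in terms of the number of stable points -/
theorem sz_eq : (sz k ⟨Q.src, Q.tgt⟩ (FV k (dvec Q) 1) : ℝ) * ((Nat.card k : ℝ)⁻¹) ^ dd Q
    = (Nat.card (ST k ⟨Q.src, Q.tgt⟩ (FV k (dvec Q) 1)) : ℝ) / Nat.card (Gau k (FV k (dvec Q) 1))
      * ((Nat.card k : ℝ)⁻¹) ^ (2 * dd Q) := by
  rw [two_mul, zpow_add₀ (inv_ne_zero (card_k_pos (k := k)).ne')]
  rw [← mul_assoc]
  congr 1
  rw [zpow_dd]
  unfold N3.sz
  push_cast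
  rw [mul_div_mul_comm]
  ring

end Vale.Agent.P291.N5
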