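import Vale.Agent.P291.H415.N3.HN

/-!
# The gauge group acts freely on the stable points
-/

namespace Vale.Agent.P291.N3

set_option linter.unusedSectionVars false

open LinearMap

variable {k : Type*} [Field k]
variable {I E : Type*} [Fintype E] [Fintype I] {Q : Qv I E}
variable {V : Option I → Type*} [∀ j, AddCommGroup (V j)] [∀ j, Module k (V j)]

/-- extension of an element of the gauge group by the identity of the framing space -/
def ge (g : Gau k V) : ∀ j, V j ≃ₗ[k] V j := gx (LinearEquiv.refl k _) g

theorem ge_one (j : Option I) : ge (1 : Gau k V) j = LinearEquiv.refl k _ := by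
  rcases j with _ | i <;> rfl

theorem ge_mul (g h : Gau k V) (j : Option I) : ge (g * h) j = (ge h j).trans (ge g j) := by
  rcases j with _ | i <;> rfl

theorem repE_one (x : Rep k Q V) : repE (ge (1 : Gau k V)) x = x := by
  funext a; ext v; simp [repE_apply, ge_one]

theorem redE_one (x : Red k Q V) : redE (ge (1 : Gau k V)) x = x := by
  funext a; ext v; simp [redE_apply, ge_one]

theorem repE_mul (g h : Gau k V) (x : Rep k Q V) :
    repE (ge (g * h)) x = repE (ge g) (repE (ge h) x) := by
  funext a; ext v; simp [repE_apply, ge_mul]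

theorem redE_mul (g h : Gau k V) (x : Red k Q V) :
    redE (ge (g * h)) x = redE (ge g) (redE (ge h) x) := by
  funext a; ext v; simp [redE_apply, ge_mul]

/-- an element of the gauge group that fixes a stable point is the identity -/
theorem free {x : Rep k Q V} {y : Red k Q V} (hst : Stable x y) (g : Gau k V)
    (hx : repE (ge g) x = x) (hy : redE (ge g) y = y) : g = 1 := by
  have hx' : ∀ a v, ge g _ (x a v) = x a (ge g _ v) := by
    intro a v
    have h := LinearMap.congr_fun (congrFun hx a) (ge g _ v)
    simp only [repE_apply, LinearMap.comp_apply, LinearEquiv.coe_coe,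
      LinearEquiv.symm_apply_apply] at h
    exact h
  have hy' : ∀ a v, ge g _ (y a v) = y a (ge g _ v) := by
    intro a v
    have h := LinearMap.congr_fun (congrFun hy a) (ge g _ v)
    simp only [redE_apply, LinearMap.comp_apply, LinearEquiv.coe_coe,
      LinearEquiv.symm_apply_apply] at h
    exact h
  have hU := hst (fun j => LinearMap.range ((ge g j).toLinearMap - LinearMap.id)) ⟨?_, ?_, ?_⟩
  · funext i
    apply LinearEquiv.ext
    intro v
    have h1 : ((ge g (some i)).toLinearMap - (LinearMap.id : V (some i) →ₗ[k] V (some i))) v ∈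
        LinearMap.range ((ge g (some i)).toLinearMap -
          (LinearMap.id : V (some i) →ₗ[k] V (some i))) := ⟨v, rfl⟩
    rw [hU (some i), Submodule.mem_bot, LinearMap.sub_apply, LinearMap.id_apply, sub_eq_zero] at h1
    exact h1
  · rw [eq_bot_iff]
    rintro _ ⟨v, rfl⟩
    simp [ge]
  · rintro a _ ⟨v, rfl⟩
    refine ⟨x a v, ?_⟩
    simp only [LinearMap.sub_apply, LinearMap.id_apply, LinearEquiv.coe_coe, map_sub]
    rw [hx']
  · rintro a _ ⟨v, rfl⟩
    refine ⟨y a v, ?_⟩
    simp only [LinearMap.sub_apply, LinearMap.id_apply, LinearEquiv.coe_coe, map_sub]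
    rw [hy']

variable [∀ j, Module.Finite k (V j)]

/-- the action of the gauge group on the stable points -/
noncomputable instance actST : MulAction (Gau k V) (ST k Q V) where
  smul g p := ⟨(repE (ge g) p.1.1, redE (ge g) p.1.2),
    (muZero_transport _ _ _).2 p.2.1, (stable_transport _ _ _).2 p.2.2⟩
  one_smul _ := Subtype.ext (Prod.ext (repE_one _) (redE_one _))
  mul_smul _ _ _ := Subtype.ext (Prod.ext (repE_mul _ _ _) (redE_mul _ _ _))

theorem smul_val (g : Gau k V) (p : ST k Q V) :
    (g • p).1 = (repE (ge g) p.1.1, redE (ge g) p.1.2) := rfl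

variable (k Q V) in
/-- the set of points of the quiver variety over `k` -/
def Pts : Type _ := MulAction.orbitRel.Quotient (Gau k V) (ST k Q V)

theorem card_ST : Nat.card (ST k Q V) = Nat.card (Pts k Q V) * Nat.card (Gau k V) := by
  have h : ∀ p : ST k Q V, MulAction.stabilizer (Gau k V) p = ⊥ := by
    intro p
    rw [eq_bot_iff]
    intro g hg
    rw [MulAction.mem_stabilizer_iff] at hg
    have h1 := congrArg Subtype.val hg
    rw [smul_val] at h1
    rw [Subgroup.mem_bot]
    exact free p.2.2 g (congrArg Prod.fst h1) (congrArg Prod.snd h1)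
  rw [Nat.card_congr (MulAction.selfEquivOrbitsQuotientProd h), Nat.card_prod]
  rfl

end Vale.Agent.P291.N3
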