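import Mathlib

/-!
# A series in `q⁻¹` with integral values is a polynomial in `q`
-/

namespace Vale.Agent.P291.N5

/-- If `∑ h e q^{D-e}` is a natural number for `q = 2^n`, `n ≥ 1`, and `h` is zero in negative
degrees, then `h e = 0` for `e > D`. -/
theorem vanish_of_integral (h : ℤ → ℕ) (D : ℤ) (h0 : ∀ e < 0, h e = 0) (m : ℕ → ℕ)
    (H : ∀ n : ℕ, 1 ≤ n → HasSum (fun e : ℤ => (h e : ℝ) * ((2 : ℝ) ^ n) ^ (D - e)) (m n)) :
    ∀ e, D < e → h e = 0 := by
  classical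
  -- the polynomial part
  let F : Finset ℤ := Finset.Icc 0 D
  let a : ℤ → ℕ := fun e => if e ∈ F then h e else 0
  let b : ℤ → ℕ := fun e => if D < e then h e else 0
  have hab : ∀ e, h e = a e + b e := by
    intro e
    simp only [a, b, F, Finset.mem_Icc]
    by_cases h1 : e < 0
    · rw [h0 e h1]; simp
    · by_cases h2 : D < e
      · rw [if_neg (by omega), if_pos h2, zero_add]
      · rw [if_pos (by omega), if_neg h2, add_zero]
  let A : ℕ → ℕ := fun n => ∑ e ∈ F, h e * (2 ^ n) ^ (D - e).toNat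
  have hA : ∀ n : ℕ, HasSum (fun e : ℤ => (a e : ℝ) * ((2 : ℝ) ^ n) ^ (D - e)) (A n) := by
    intro n
    have h1 : HasSum (fun e : ℤ => (a e : ℝ) * ((2 : ℝ) ^ n) ^ (D - e))
        (∑ e ∈ F, (a e : ℝ) * ((2 : ℝ) ^ n) ^ (D - e)) := by
      apply hasSum_sum_of_ne_finset_zero
      intro e he
      simp [a, he]
    convert h1 using 1
    simp only [A]
    push_cast
    refine Finset.sum_congr rfl fun e he => ?_
    simp only [a, if_pos he]
    congr 1
    have h2 : 0 ≤ D - e := by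
      simp only [F, Finset.mem_Icc] at he
      omega
    conv_rhs => rw [← Int.toNat_of_nonneg h2]
    rw [zpow_natCast]
  have hB : ∀ n : ℕ, 1 ≤ n →
      HasSum (fun e : ℤ => (b e : ℝ) * ((2 : ℝ) ^ n) ^ (D - e)) ((m n : ℝ) - A n) := by
    intro n hn
    have h1 := (H n hn).sub (hA n)
    have h2 : (fun e : ℤ => (b e : ℝ) * ((2 : ℝ) ^ n) ^ (D - e))
        = fun e : ℤ => (h e : ℝ) * ((2 : ℝ) ^ n) ^ (D - e) - (a e : ℝ) * ((2 : ℝ) ^ n) ^ (D - e) := by
      funext e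
      rw [hab e]
      push_cast
      ring
    rw [h2]
    exact h1
  have hBnn : ∀ (n : ℕ) (e : ℤ), 0 ≤ (b e : ℝ) * ((2 : ℝ) ^ n) ^ (D - e) := fun n e =>
    mul_nonneg (Nat.cast_nonneg _) (zpow_nonneg (by positivity) _)
  have hbound : ∀ n : ℕ, 1 ≤ n → (m n : ℝ) - A n ≤ ((m 1 : ℝ) - A 1) * (2 / 2 ^ n) := by
    intro n hn
    have h1 := (hB 1 le_rfl).mul_right ((2 : ℝ) / 2 ^ n)
    refine hasSum_le ?_ (hB n hn) h1
    intro e
    by_cases hb : D < e
    · rw [mul_assoc]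
      refine mul_le_mul_of_nonneg_left ?_ (Nat.cast_nonneg _)
      have h2 : ((2 : ℝ) ^ n) ^ (D - e) = (2 : ℝ) ^ ((n : ℤ) * (D - e)) := by
        rw [zpow_mul, zpow_natCast]
      have h3 : ((2 : ℝ) ^ 1) ^ (D - e) * (2 / 2 ^ n) = (2 : ℝ) ^ ((D - e) + (1 - (n : ℤ))) := by
        rw [pow_one, zpow_add₀ two_ne_zero, zpow_sub₀ (two_ne_zero) 1, zpow_natCast, zpow_one]
      rw [h2, h3]
      apply zpow_le_zpow_right₀ one_le_two
      have h4 : (0 : ℤ) ≤ (n : ℤ) - 1 := by omega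
      have h5 : (0 : ℤ) ≤ (e - D) - 1 := by omega
      nlinarith [mul_nonneg h4 h5]
    · simp [b, hb]
  obtain ⟨n, hn1, hn2⟩ : ∃ n : ℕ, 1 ≤ n ∧ ((m 1 : ℝ) - A 1) * (2 / 2 ^ n) < 1 := by
    obtain ⟨n, hn⟩ := pow_unbounded_of_one_lt (((m 1 : ℝ) - A 1) * 2) one_lt_two
    refine ⟨n + 1, by omega, ?_⟩
    rw [mul_div_assoc', div_lt_one (by positivity), pow_succ]
    have : (0 : ℝ) < 2 ^ n := by positivity
    linarith
  have h1 := (hbound n hn1).trans_lt hn2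
  have h2 : (0 : ℝ) ≤ (m n : ℝ) - A n := (hB n hn1).nonneg (hBnn n)
  have h3 : (m n : ℝ) - A n = 0 := by
    have h4 : (m n : ℤ) - A n < 1 := by exact_mod_cast h1
    have h5 : (0 : ℤ) ≤ (m n : ℤ) - A n := by exact_mod_cast h2
    have h6 : (m n : ℤ) - A n = 0 := by omega
    exact_mod_cast h6
  have h4 := hB n hn1
  rw [h3] at h4
  have h5 := (hasSum_zero_iff_of_nonneg (hBnn n)).1 h4
  intro e he
  have h6 := congrFun h5 e
  simp only [Pi.zero_apply, mul_eq_zero, Nat.cast_eq_zero] at h6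
  rcases h6 with h6 | h6
  · simpa [b, he] using h6
  · exact absurd h6 (zpow_ne_zero _ (by positivity))

end Vale.Agent.P291.N5
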