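import Vale.Agent.P291.H415.N5.Main
import Vale.Agent.P291.H415.N5.Dim
import Vale.Agent.P291.H415.N5.Free
import Vale.Agent.P291.H415.N5.Integral
import Vale.Agent.P291.H664.Point

/-!
# N5: the Hilbert series of `ℂ[Y^ν]` counts the points of the quiver variety over finite fields
-/

open MvPolynomial

set_option linter.unusedSectionVars false

namespace Vale.Agent.P291.N5

open N3 (Rep Red Lie Gau ST FV nz sz nz_rec ComNil card_rep card_lie finrank_FV Pts card_ST)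

universe u

variable {I E : Type*} [Fintype E] [Fintype I] [DecidableEq I]
variable {K₀ : Type*} [Field K₀] [CharZero K₀]

section fin

variable {k : Type*} [Field k] [Finite k]

theorem fr_aux {B Λ : Type*} [Fintype B] [DecidableEq B] [CommRing Λ] [IsDomain Λ]
    (Q : QD I E B Λ) :
    HasSum (fun e : ℤ => (Q.mul e : ℝ) * ((Nat.card k : ℝ)⁻¹) ^ e)
      ((nz k ⟨Q.src, Q.tgt⟩ (FV k (dvec Q) 1) : ℝ) * ((Nat.card k : ℝ)⁻¹) ^ dd Q) := by
  have h := H664.hasSum_mul_nz Q k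
  rw [zpow_dd]
  convert h using 1
  rw [show H664.vv Q = dvec Q from rfl]
  push_cast
  rw [mul_div_assoc]

theorem un_aux {B Λ : Type*} [Fintype B] [DecidableEq B] [CommRing Λ] [IsDomain Λ]
    (Q : QD I E B Λ) :
    HasSum (fun e : ℤ => (Q.unf.mul e : ℝ) * ((Nat.card k : ℝ)⁻¹) ^ e)
      ((nz k ⟨Q.src, Q.tgt⟩ (FV k (dvec Q) 0) : ℝ) * ((Nat.card k : ℝ)⁻¹) ^ dd Q.unf) := by
  have h := H664.hasSum_mul_unf_nz Q k
  rw [zpow_dd_unf]
  convert h using 1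
  rw [show H664.vv Q = dvec Q from rfl]
  push_cast
  rw [mul_div_assoc]

/-- **N5**, series form: `∑_e dim (R/J_C)_e q^{2 dd - e} = # X(𝔽_q)`. -/
theorem count_series {B : Type u} [Fintype B] [DecidableEq B] (Q : QD I E B K₀)
    (h0 : ∀ a, Q.t a = 0) :
    HasSum (fun e : ℤ => (Q.hC e : ℝ) * (Nat.card k : ℝ) ^ (2 * dd Q - e))
      (Nat.card (Pts k ⟨Q.src, Q.tgt⟩ (FV k (dvec Q) 1)) : ℝ) := by
  obtain ⟨src, tgt, vx, t⟩ := Q
  have ht : t = fun _ => (0 : K₀) := funext h0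
  subst ht
  set Q : QD I E B K₀ := ⟨src, tgt, vx, fun _ => 0⟩ with hQ
  have hq : (0 : ℝ) < Nat.card k := card_k_pos
  have hT : (0 : ℝ) < (Nat.card k : ℝ)⁻¹ := inv_pos.2 hq
  have h1 := main_aux (K₀ := K₀) (k := k) _ hT src tgt
    (fun B _ _ vx => fr_aux (QD.mk src tgt vx (fun _ => (0 : K₀))))
    (fun B _ _ vx => un_aux (QD.mk src tgt vx (fun _ => (0 : K₀)))) _ B vx rfl
  rw [← hQ] at h1
  have h2 := sz_eq (k := k) Q
  have h3 : (sz k ⟨src, tgt⟩ (FV k (dvec Q) 1) : ℝ) * ((Nat.card k : ℝ)⁻¹) ^ dd Q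
      = (Nat.card (Pts k ⟨src, tgt⟩ (FV k (dvec Q) 1)) : ℝ)
        * ((Nat.card k : ℝ)⁻¹) ^ (2 * dd Q) := by
    have h4 := card_ST (k := k) (Q := (⟨src, tgt⟩ : N3.Qv I E)) (V := FV k (dvec Q) 1)
    have h5 : (Nat.card (ST k ⟨src, tgt⟩ (FV k (dvec Q) 1)) : ℝ)
        = Nat.card (Pts k ⟨src, tgt⟩ (FV k (dvec Q) 1)) * Nat.card (Gau k (FV k (dvec Q) 1)) := by
      exact_mod_cast h4
    have h6 : (Nat.card (Gau k (FV k (dvec Q) 1)) : ℝ) ≠ 0 := by
      have := N3.card_gau_ne (k := k) (V := FV k (dvec Q) 1)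
      exact_mod_cast this
    have h7 : (Nat.card (ST k ⟨src, tgt⟩ (FV k (dvec Q) 1)) : ℝ)
        / Nat.card (Gau k (FV k (dvec Q) 1))
        = Nat.card (Pts k ⟨src, tgt⟩ (FV k (dvec Q) 1)) := by
      rw [h5, mul_div_cancel_right₀ _ h6]
    rw [← h7]
    exact h2
  rw [h3] at h1
  have h4 := h1.mul_right ((Nat.card k : ℝ) ^ (2 * dd Q))
  have h5 : (Nat.card (Pts k ⟨src, tgt⟩ (FV k (dvec Q) 1)) : ℝ)
        * ((Nat.card k : ℝ)⁻¹) ^ (2 * dd Q) * (Nat.card k : ℝ) ^ (2 * dd Q)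
      = Nat.card (Pts k ⟨src, tgt⟩ (FV k (dvec Q) 1)) := by
    rw [mul_assoc, ← mul_zpow, inv_mul_cancel₀ hq.ne', one_zpow, mul_one]
  rw [h5] at h4
  have h6 : (fun e : ℤ => (Q.hC e : ℝ) * (Nat.card k : ℝ) ^ (2 * dd Q - e))
      = fun e : ℤ => (Q.hC e : ℝ) * (Nat.card k : ℝ)⁻¹ ^ e * (Nat.card k : ℝ) ^ (2 * dd Q) := by
    funext e
    rw [mul_assoc, inv_zpow', ← zpow_add₀ hq.ne', neg_add_eq_sub]
  rw [h6]
  exact h4

end fin

theorem hC_neg {B : Type*} [Fintype B] [DecidableEq B] (Q : QD I E B K₀) (e : ℤ) (he : e < 0) :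
    Q.hC e = 0 := by
  have h1 : Q.RC e = ⊥ := by
    unfold QD.RC
    rw [if_neg (by omega), inf_bot_eq]
  have : Subsingleton ↥(Q.RC e) := by rw [h1]; infer_instance
  unfold QD.hC
  exact Module.finrank_zero_of_subsingleton

/-- the ring `ℂ[Y^ν]` (trivial flavour torus) is zero in the degrees larger than `dim X` -/
theorem hC_vanish {B : Type u} [Fintype B] [DecidableEq B] (Q : QD I E B K₀)
    (h0 : ∀ a, Q.t a = 0) : ∀ e, 2 * dd Q < e → Q.hC e = 0 := by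
  refine vanish_of_integral Q.hC (2 * dd Q) (hC_neg Q)
    (fun n => Nat.card (Pts (GaloisField 2 n) ⟨Q.src, Q.tgt⟩ (FV (GaloisField 2 n) (dvec Q) 1))) ?_
  intro n hn
  have h1 := count_series (k := GaloisField 2 n) Q h0
  have h2 : (Nat.card (GaloisField 2 n) : ℝ) = (2 : ℝ) ^ n := by
    rw [GaloisField.card 2 n (by omega)]
    push_cast
    rfl
  rw [h2] at h1
  exact h1

/-- **N5**: the number of points of the quiver variety over a finite field. -/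
theorem count_points {k : Type*} [Field k] [Finite k] {B : Type u} [Fintype B] [DecidableEq B]
    (Q : QD I E B K₀) (h0 : ∀ a, Q.t a = 0) :
    Nat.card (Pts k ⟨Q.src, Q.tgt⟩ (FV k (dvec Q) 1))
      = ∑ e ∈ Finset.Icc 0 (2 * dd Q), Q.hC e * Nat.card k ^ (2 * dd Q - e).toNat := by
  have h1 := count_series (k := k) Q h0
  have h2 : HasSum (fun e : ℤ => (Q.hC e : ℝ) * (Nat.card k : ℝ) ^ (2 * dd Q - e))
      (∑ e ∈ Finset.Icc 0 (2 * dd Q), (Q.hC e : ℝ) * (Nat.card k : ℝ) ^ (2 * dd Q - e)) := by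
    apply hasSum_sum_of_ne_finset_zero
    intro e he
    rw [Finset.mem_Icc, not_and_or, not_le, not_le] at he
    rcases he with he | he
    · rw [hC_neg Q e he]; simp
    · rw [hC_vanish Q h0 e he]; simp
  have h3 := h1.unique h2
  have h4 : ∀ e ∈ Finset.Icc 0 (2 * dd Q), (Q.hC e : ℝ) * (Nat.card k : ℝ) ^ (2 * dd Q - e)
      = ((Q.hC e * Nat.card k ^ (2 * dd Q - e).toNat : ℕ) : ℝ) := by
    intro e he
    rw [Finset.mem_Icc] at he
    push_cast
    congr 1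
    have h5 : 0 ≤ 2 * dd Q - e := by omega
    conv_lhs => rw [← Int.toNat_of_nonneg h5]
    rw [zpow_natCast]
  rw [Finset.sum_congr rfl h4] at h3
  exact_mod_cast h3

end Vale.Agent.P291.N5
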