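import Vale.Agent.P291.H415.N5.Card
import Vale.Agent.P291.H415.N3.Rec

/-!
# N5: transversal of the orbits of subsets
-/

open MvPolynomial

set_option linter.unusedSectionVars false

namespace Vale.Agent.P291.N5

variable {I E B Λ : Type*} [Fintype E] [Fintype I] [DecidableEq I] [Fintype B] [DecidableEq B]
  [CommRing Λ] [IsDomain Λ]
variable (Q : QD I E B Λ)

/-- the dimension vector -/
noncomputable def dvec : I →₀ ℕ := Finsupp.equivFunOnFinite.symm (nb Q)

/-- the dimension vector of a subset -/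
noncomputable def dU (U : Finset B) : I →₀ ℕ := Finsupp.equivFunOnFinite.symm (nU Q U)

theorem dvec_apply (i : I) : dvec Q i = nb Q i := rfl
theorem dU_apply (U : Finset B) (i : I) : dU Q U i = nU Q U i := rfl

theorem dvec_rst (U : Finset B) : dvec (Q.rst U) = dU Q U := by
  ext i; exact nb_rst Q U i

theorem dU_split (U : Finset B) : dU Q U + dU Q Uᶜ = dvec Q := by
  ext i; exact (nb_split Q U i).symm

theorem nU_map (U : Finset B) (σ : Equiv.Perm B) (hσ : σ ∈ Q.W) (i : I) :
    nU Q (U.map σ.toEmbedding) i = nU Q U i := by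
  unfold nU
  rw [Finset.filter_map, Finset.card_map]
  congr 1
  ext b
  simp only [Finset.mem_filter, Function.comp, Equiv.coe_toEmbedding]
  rw [hσ b]

theorem exists_perm_of_card_fiber {X Y : Type*} [Fintype X] [DecidableEq Y] (f f' : X → Y)
    (h : ∀ y, (Finset.univ.filter (fun x => f x = y)).card
      = (Finset.univ.filter (fun x => f' x = y)).card) :
    ∃ w : Equiv.Perm X, ∀ x, f' (w x) = f x := by
  classical
  have e : ∀ y, Nonempty ({x // f x = y} ≃ {x // f' x = y}) := by
    intro y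
    apply Fintype.card_eq.1
    rw [Fintype.card_subtype, Fintype.card_subtype]
    convert h y
  refine ⟨Equiv.ofFiberEquiv (f := f) (g := f') (fun y => (e y).some), fun x => ?_⟩
  exact Equiv.ofFiberEquiv_map (fun y => (e y).some) x

/-- subsets with the same dimension vector are conjugate -/
theorem exists_conj (U M : Finset B) (h : ∀ i, nU Q U i = nU Q M i) :
    ∃ σ ∈ Q.W, M.map σ.toEmbedding = U := by
  obtain ⟨w, hw⟩ := exists_perm_of_card_fiber (fun b => (Q.vx b, decide (b ∈ M)))
    (fun b => (Q.vx b, decide (b ∈ U))) (by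
      rintro ⟨i, t⟩
      have hc : ∀ U : Finset B, (Finset.univ.filter fun b => (Q.vx b, decide (b ∈ U)) = (i, true)).card
          = nU Q U i := by
        intro U
        unfold nU
        congr 1
        ext b; simp [and_comm]
      have hc' : ∀ U : Finset B,
          (Finset.univ.filter fun b => (Q.vx b, decide (b ∈ U)) = (i, false)).card
          = nU Q Uᶜ i := by
        intro U
        unfold nU
        congr 1
        ext b; simp [and_comm]
      cases t
      · rw [hc', hc']
        have h1 := nb_split Q U i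
        have h2 := nb_split Q M i
        have h3 := h i
        omega
      · rw [hc, hc, h])
  refine ⟨w, fun b => (Prod.mk.inj (hw b)).1, ?_⟩
  ext b
  have h1 : ∀ b, w b ∈ U ↔ b ∈ M := by
    intro b
    have := (Prod.mk.inj (hw b)).2
    simpa using this
  constructor
  · intro hb
    obtain ⟨c, hc, rfl⟩ := Finset.mem_map.1 hb
    exact (h1 c).2 hc
  · intro hb
    refine Finset.mem_map.2 ⟨w.symm b, ?_, by simp⟩
    rw [← h1]; simpa using hb

theorem exists_subset (n : I → ℕ) (hn : ∀ i, n i ≤ nb Q i) : ∃ U : Finset B, ∀ i, nU Q U i = n i := by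
  have h : ∀ i, ∃ S ⊆ Finset.univ.filter (fun b => Q.vx b = i), S.card = n i := fun i =>
    Finset.exists_subset_card_eq (hn i)
  choose S hS1 hS2 using h
  refine ⟨Finset.univ.filter fun b => b ∈ S (Q.vx b), fun i => ?_⟩
  unfold nU
  rw [← hS2 i]
  congr 1
  ext b
  simp only [Finset.mem_filter, Finset.mem_univ, true_and]
  constructor
  · rintro ⟨h1, rfl⟩; exact h1
  · intro h1
    have h2 := hS1 i h1
    simp only [Finset.mem_filter, Finset.mem_univ, true_and] at h2
    subst h2
    exact ⟨h1, rfl⟩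

open Classical in
/-- chosen subset of given dimension vector -/
noncomputable def ch (p : (I →₀ ℕ) × (I →₀ ℕ)) : Finset B :=
  if h : ∃ U : Finset B, ∀ i, nU Q U i = p.1 i then h.choose else ∅

theorem ch_spec {p : (I →₀ ℕ) × (I →₀ ℕ)}
    (hp : p ∈ Finset.HasAntidiagonal.antidiagonal (dvec Q)) :
    dU Q (ch Q p) = p.1 ∧ dU Q (ch Q p)ᶜ = p.2 := by
  rw [Finset.HasAntidiagonal.mem_antidiagonal] at hp
  have h : ∃ U : Finset B, ∀ i, nU Q U i = p.1 i := exists_subset Q _ (fun i => by
    rw [← dvec_apply, ← hp]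
    simp)
  have h1 : dU Q (ch Q p) = p.1 := by
    ext i
    unfold ch
    rw [dif_pos h]
    exact h.choose_spec i
  refine ⟨h1, ?_⟩
  have h2 := dU_split Q (ch Q p)
  rw [h1, ← hp] at h2
  exact add_left_cancel h2

/-- the transversal -/
noncomputable def TT : Finset (Finset B) :=
  (Finset.HasAntidiagonal.antidiagonal (dvec Q)).image (ch Q)

theorem TT_spec (M : Finset B) : ∃! U, U ∈ TT Q ∧ ∃ σ ∈ Q.W, M.map σ.toEmbedding = U := by
  have hp : (dU Q M, dU Q Mᶜ) ∈ Finset.HasAntidiagonal.antidiagonal (dvec Q) := by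
    rw [Finset.HasAntidiagonal.mem_antidiagonal]
    exact dU_split Q M
  refine ⟨ch Q (dU Q M, dU Q Mᶜ), ⟨Finset.mem_image_of_mem _ hp, ?_⟩, ?_⟩
  · apply exists_conj
    intro i
    have := (ch_spec Q hp).1
    rw [← dU_apply, ← dU_apply, this]
  · rintro U ⟨hU, σ, hσ, rfl⟩
    obtain ⟨p, hp', h2⟩ := Finset.mem_image.1 hU
    have h3 := ch_spec Q hp'
    rw [h2] at h3
    have h4 : ∀ M : Finset B, dU Q (M.map σ.toEmbedding) = dU Q M := by
      intro M; ext i; exact nU_map Q M σ hσ i
    have h5 : (M.map σ.toEmbedding)ᶜ = Mᶜ.map σ.toEmbedding := by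
      ext b
      simp only [Finset.mem_compl, Finset.mem_map_equiv]
    have h6 : p = (dU Q M, dU Q Mᶜ) := by
      apply Prod.ext
      · rw [← h3.1, h4]
      · rw [← h3.2, h5, h4]
    rw [← h2, h6]

theorem sum_TT {R : Type*} [AddCommMonoid R] (F : Finset B → R) :
    ∑ U ∈ TT Q, F U = ∑ p ∈ Finset.HasAntidiagonal.antidiagonal (dvec Q), F (ch Q p) := by
  unfold TT
  rw [Finset.sum_image]
  intro p hp p' hp' h
  have h1 := ch_spec Q hp
  have h2 := ch_spec Q hp'
  rw [h] at h1
  exact Prod.ext (h1.1.symm.trans h2.1) (h1.2.symm.trans h2.2)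

theorem ch_zero : ch Q (0, dvec Q) = ∅ := by
  have hp : ((0, dvec Q) : (I →₀ ℕ) × (I →₀ ℕ)) ∈
      Finset.HasAntidiagonal.antidiagonal (dvec Q) := by
    rw [Finset.HasAntidiagonal.mem_antidiagonal, zero_add]
  have h := (ch_spec Q hp).1
  rw [Finset.eq_empty_iff_forall_notMem]
  intro b hb
  have h1 : nU Q (ch Q (0, dvec Q)) (Q.vx b) = 0 := by
    rw [← dU_apply, h]; rfl
  unfold nU at h1
  rw [Finset.card_eq_zero, Finset.filter_eq_empty_iff] at h1
  exact h1 hb rfl

theorem ch_ne {p : (I →₀ ℕ) × (I →₀ ℕ)}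
    (hp : p ∈ Finset.HasAntidiagonal.antidiagonal (dvec Q)) (h : p ≠ (0, dvec Q)) :
    (ch Q p).Nonempty := by
  rw [Finset.nonempty_iff_ne_empty]
  intro h0
  apply h
  have h1 := ch_spec Q hp
  rw [h0] at h1
  have h2 : dU Q (∅ : Finset B) = 0 := by
    ext i; simp [dU_apply, nU]
  rw [Finset.HasAntidiagonal.mem_antidiagonal] at hp
  have h3 : p.1 = 0 := by rw [← h1.1, h2]
  apply Prod.ext
  · exact h3
  · rw [← hp, h3, zero_add]

end Vale.Agent.P291.N5
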