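import Vale.Agent.P291.H4Blk
import Vale.Agent.P291.HN2fBlk
import Vale.Agent.P291.H415.N5.Trans
import Vale.Agent.P291.H415.N5.Cauchy

/-!
# N5: comparison of the two recursions
-/

open MvPolynomial

set_option linter.unusedSectionVars false

namespace Vale.Agent.P291.N5

open N3 (Rep Red Lie Gau ST FV nz sz nz_rec ComNil card_rep card_lie finrank_FV)

universe u

section zero

variable {k : Type*} [Field k] [Finite k]
variable {I E : Type*} [Fintype E] [Fintype I] [DecidableEq I] {N : N3.Qv I E}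

theorem nz_zero : nz k N (FV k (0 : I →₀ ℕ) 0) = 1 := by
  have hs : ∀ i : I, Subsingleton (FV k (0 : I →₀ ℕ) 0 (some i)) := fun i => by
    show Subsingleton (Fin 0 → k)
    infer_instance
  have h1 : Nat.card (ComNil k N (FV k (0 : I →₀ ℕ) 0)) = 1 := by
    have : Unique (ComNil k N (FV k (0 : I →₀ ℕ) 0)) := by
      refine ⟨⟨⟨(0, 0), ?_, ?_⟩⟩, ?_⟩
      · funext a
        apply LinearMap.ext
        intro v
        have := hs (N.src a)
        have h0 : v = 0 := Subsingleton.elim _ _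
        rw [h0, map_zero, map_zero]
      · intro i
        exact ⟨1, by simp⟩
      · rintro ⟨⟨x, ξ⟩, h⟩
        apply Subtype.ext
        apply Prod.ext
        · funext a
          apply LinearMap.ext
          intro v
          have := hs (N.src a)
          have h0 : v = 0 := Subsingleton.elim _ _
          rw [h0, map_zero, map_zero]
        · funext i
          apply LinearMap.ext
          intro v
          have := hs i
          exact Subsingleton.elim _ _
    exact Nat.card_unique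
  have h2 : Nat.card (Gau k (FV k (0 : I →₀ ℕ) 0)) = 1 := by
    have : Unique (Gau k (FV k (0 : I →₀ ℕ) 0)) := by
      refine ⟨⟨fun i => LinearEquiv.refl k _⟩, ?_⟩
      intro g
      funext i
      apply LinearEquiv.ext
      intro v
      have := hs i
      exact Subsingleton.elim _ _
    exact Nat.card_unique
  unfold N3.nz
  rw [h1, h2]
  norm_num

end zero

variable {I E : Type*} [Fintype E] [Fintype I] [DecidableEq I]
variable {K₀ : Type*} [Field K₀] [CharZero K₀]

/-- the quiver -/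
def qv {B : Type*} (Q : QD I E B K₀) : N3.Qv I E := ⟨Q.src, Q.tgt⟩

theorem hC_congr {B : Type*} [Fintype B] [DecidableEq B] (Q : QD I E B K₀) (h0 : ∀ a, Q.t a = 0)
    {B' : Type*} [Fintype B'] [DecidableEq B'] (j : B' ≃ B) (vx' : B' → I)
    (hj : ∀ b, vx' b = Q.vx (j b)) (d : ℤ) : (Q.on vx').hC d = Q.hC d := by
  have h1 := hH_line Q h0 d
  have h2 := hH_line (Q.on vx') (fun a => h0 a) d
  have h3 := hH_congr Q.line (scalPoly K₀) j vx' hj d
  have h4 := hH_congr Q.line (scalPoly K₀) j vx' hj (d - 1)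
  have e : (Q.on vx').line = Q.line.on vx' := rfl
  rw [e, h3, h4, h1] at h2
  have : (Q.hC d : ℤ) = (Q.on vx').hC d := by linarith
  exact_mod_cast this.symm

theorem dd_empty {B : Type*} [Fintype B] [DecidableEq B] (Q : QD I E B K₀) :
    dd (Q.rst (∅ : Finset B)).unf = 0 := by
  have h := card_Wt_unf Q ∅
  have h2 : (Q.rst (∅ : Finset B)).unf.Prs.card = 0 := by
    rw [card_Prs]
    apply Finset.sum_eq_zero
    intro i _
    rw [show nb (Q.rst (∅ : Finset B)).unf i = nU Q ∅ i from nb_rst Q ∅ i]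
    simp [nU]
  have h3 : (Q.rst (∅ : Finset B)).unf.Wt.card = 0 := by
    rw [h]
    apply Finset.sum_eq_zero
    intro a _
    simp [nU]
  unfold dd
  rw [h2, h3]; simp

theorem mul_empty {Λ : Type*} [CommRing Λ] [IsDomain Λ] {B : Type*} [Fintype B] [DecidableEq B]
    [IsEmpty B] {E : Type*} [Fintype E] (Q : QD I E B Λ) (e : ℤ) :
    Q.mul e = if e = 0 then 1 else 0 := by
  have hdeg0 : ∀ x : Q.Idx0, Q.deg0 x = 0 := by
    intro x
    unfold QD.deg0 QD.degE
    have h1 : Q.Wt = ∅ := by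
      rw [Finset.eq_empty_iff_forall_notMem]
      rintro ⟨a, b, o⟩
      exact isEmptyElim b
    have h2 : Q.Prs = ∅ := by
      rw [Finset.eq_empty_iff_forall_notMem]
      rintro ⟨a, b⟩
      exact isEmptyElim a
    have h3 : x.1.2 = 0 := by ext b; exact isEmptyElim b
    rw [h1, h2, h3]
    simp
  have hsub : ∀ x y : Q.Idx0, x = y := by
    intro x y
    apply Subtype.ext
    apply Prod.ext
    · funext b; exact isEmptyElim b
    · ext b; exact isEmptyElim b
  let x0 : Q.Idx0 := ⟨(0, 0), ⟨⟨fun b => isEmptyElim b, fun i => by simp [QD.chg]⟩,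
    fun b => isEmptyElim b⟩⟩
  have hu : Unique Q.Idx := by
    refine ⟨⟨Quotient.mk Q.idxSetoid x0⟩, ?_⟩
    intro x
    induction x using Quotient.inductionOn with
    | h y => rw [hsub y x0]; rfl
  unfold QD.mul
  split_ifs with h
  · subst h
    have : Unique {x : Q.Idx // Q.degI x = 0} := by
      refine ⟨⟨⟨hu.default, hdeg0 _⟩⟩, ?_⟩
      rintro ⟨x, hx⟩
      apply Subtype.ext
      exact hu.uniq x
    exact Nat.card_unique
  · have : IsEmpty {x : Q.Idx // Q.degI x = e} := by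
      refine ⟨?_⟩
      rintro ⟨x, hx⟩
      apply h
      rw [← hx]
      exact hdeg0 _
    exact Nat.card_of_isEmpty

/-- **N5**, relative to the closed forms. -/
theorem main_aux {k : Type*} [Field k] [Finite k] (T : ℝ) (hT : 0 < T)
    (src : E → I) (tgt : E → Option I)
    (hfr : ∀ (B : Type u) [Fintype B] [DecidableEq B] (vx : B → I),
      HasSum (fun e : ℤ => ((QD.mk src tgt vx (fun _ => (0 : K₀))).mul e : ℝ) * T ^ e)
        ((nz k ⟨src, tgt⟩ (FV k (dvec (QD.mk src tgt vx (fun _ => (0 : K₀)))) 1) : ℝ) *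
          T ^ dd (QD.mk src tgt vx (fun _ => (0 : K₀)))))
    (hun : ∀ (B : Type u) [Fintype B] [DecidableEq B] (vx : B → I),
      HasSum (fun e : ℤ => ((QD.mk src tgt vx (fun _ => (0 : K₀))).unf.mul e : ℝ) * T ^ e)
        ((nz k ⟨src, tgt⟩ (FV k (dvec (QD.mk src tgt vx (fun _ => (0 : K₀)))) 0) : ℝ) *
          T ^ dd (QD.mk src tgt vx (fun _ => (0 : K₀))).unf)) (n : ℕ) :
    ∀ (B : Type u) [Fintype B] [DecidableEq B] (vx : B → I), Fintype.card B = n →
      HasSum (fun e : ℤ => ((QD.mk src tgt vx (fun _ => (0 : K₀))).hC e : ℝ) * T ^ e)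
        ((sz k ⟨src, tgt⟩ (FV k (dvec (QD.mk src tgt vx (fun _ => (0 : K₀)))) 1) : ℝ) *
          T ^ dd (QD.mk src tgt vx (fun _ => (0 : K₀)))) := by
  induction n using Nat.strong_induction_on with
  | _ n ih =>
  intro B _ _ vx hB
  set Q : QD I E B K₀ := ⟨src, tgt, vx, fun _ => 0⟩ with hQ
  have h0 : ∀ a, Q.t a = 0 := fun a => rfl
  have hrec := recursion Q h0 (TT Q) (TT_spec Q)
  have hrst : ∀ U : Finset B, Q.rst U = QD.mk src tgt (fun b : {b // b ∈ U} => vx b.1)
      (fun _ => (0 : K₀)) := fun U => rfl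
  have hA : ∀ U : Finset B, HasSum (fun e : ℤ => ((Q.rst U).unf.mul e : ℝ) * T ^ e)
      ((nz k ⟨src, tgt⟩ (FV k (dU Q U) 0) : ℝ) * T ^ dd (Q.rst U).unf) := by
    intro U
    have := hun {b // b ∈ U} (fun b => vx b.1)
    rw [← hrst U, dvec_rst] at this
    exact this
  -- the empty subset contributes `hC` itself
  have hempty : HasSum (fun e : ℤ => ((Q.rst (∅ : Finset B)).unf.mul e : ℝ) * T ^ e) 1 := by
    have := hA ∅
    have h1 : dU Q (∅ : Finset B) = 0 := by ext i; simp [dU_apply, nU]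
    rw [h1, nz_zero, dd_empty] at this
    simpa using this
  -- the value of `hC` for the full complement
  have hcg : ∀ d, (Q.rst (∅ : Finset B)ᶜ).hC d = Q.hC d := by
    intro d
    have hj : ∀ b : {b // b ∈ (∅ : Finset B)ᶜ}, vx b.1 = Q.vx b.1 := fun b => rfl
    exact hC_congr Q h0 (Equiv.subtypeUnivEquiv (fun b => by simp)) (fun b => vx b.1)
      (fun b => rfl) d
  have he : ∀ d : ℤ, (∑ᶠ e : ℤ, (Q.rst (∅ : Finset B)).unf.mul e *
      (Q.rst (∅ : Finset B)ᶜ).hC (d - Q.degK (QD.ind (∅ : Finset B)) - e)) = Q.hC d := by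
    intro d
    have hdk : Q.degK (QD.ind (∅ : Finset B)) = 0 := by
      have h1 := dd_split Q ∅
      unfold QD.degK
      rw [card_cross, card_crossP]
      simp [nU, nUo]
      apply Finset.sum_eq_zero
      intro a _
      rcases Q.tgt a with _ | i <;> simp [nUo, nU]
    have hIE : IsEmpty {b // b ∈ (∅ : Finset B)} := ⟨fun b => absurd b.2 (Finset.notMem_empty _)⟩
    rw [hdk, finsum_eq_single _ 0]
    · rw [mul_empty, if_pos rfl, one_mul, sub_zero, sub_zero, hcg]
    · intro e he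
      rw [mul_empty, if_neg he, zero_mul]
  have hmem0 : ((0, dvec Q) : (I →₀ ℕ) × (I →₀ ℕ)) ∈
      Finset.HasAntidiagonal.antidiagonal (dvec Q) := by
    rw [Finset.HasAntidiagonal.mem_antidiagonal, zero_add]
  -- the terms of the recursion
  let t : (I →₀ ℕ) × (I →₀ ℕ) → ℤ → ℕ := fun p d =>
    ∑ᶠ e : ℤ, (Q.rst (ch Q p)).unf.mul e * (Q.rst (ch Q p)ᶜ).hC (d - Q.degK (QD.ind (ch Q p)) - e)
  have ht0 : ∀ d, t (0, dvec Q) d = Q.hC d := by
    intro d
    simp only [t]
    rw [ch_zero]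
    exact he d
  have hrec' : ∀ d, Q.mul d = ∑ p ∈ Finset.HasAntidiagonal.antidiagonal (dvec Q), t p d := by
    intro d
    rw [hrec d, sum_TT]
  have hfrQ := hfr B vx
  rw [← hQ] at hfrQ
  have hle : ∀ d : ℤ, Q.hC d ≤ Q.mul d := by
    intro d
    rw [hrec' d, ← ht0 d]
    exact Finset.single_le_sum (f := fun p => t p d) (fun _ _ => Nat.zero_le _) hmem0
  have hsum : Summable fun d : ℤ => (Q.hC d : ℝ) * T ^ d := by
    refine Summable.of_nonneg_of_le (fun d => mul_nonneg (Nat.cast_nonneg _) (zpow_pos hT _).le)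
      (fun d => ?_) hfrQ.summable
    exact mul_le_mul_of_nonneg_right (by exact_mod_cast hle d) (zpow_pos hT _).le
  obtain ⟨H, hH⟩ := hsum
  have hterm : ∀ p ∈ Finset.HasAntidiagonal.antidiagonal (dvec Q), p ≠ (0, dvec Q) →
      HasSum (fun d : ℤ => (t p d : ℝ) * T ^ d)
        ((nz k ⟨src, tgt⟩ (FV k p.1 0) * sz k ⟨src, tgt⟩ (FV k p.2 1) : ℚ) * T ^ dd Q) := by
    intro p hp hne
    have hU := ch_ne Q hp hne
    have hcard : Fintype.card {b // b ∈ (ch Q p)ᶜ} < n := by
      rw [← hB, Fintype.card_coe, Finset.card_compl]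
      have h1 := Finset.card_pos.2 hU
      have h2 : 0 < Fintype.card B := by
        obtain ⟨b, _⟩ := hU
        exact Fintype.card_pos_iff.2 ⟨b⟩
      omega
    have h1 := ih _ hcard {b // b ∈ (ch Q p)ᶜ} (fun b => vx b.1) rfl
    rw [← hrst (ch Q p)ᶜ, dvec_rst] at h1
    have h2 := cauchy _ _ (Q.degK (QD.ind (ch Q p))) T hT _ _ (hA (ch Q p)) h1
    convert h2 using 1
    rw [(ch_spec Q hp).1, (ch_spec Q hp).2, dd_split Q (ch Q p), zpow_add₀ hT.ne',
      zpow_add₀ hT.ne']
    push_cast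
    ring
  have hT0 : HasSum (fun d : ℤ => (t (0, dvec Q) d : ℝ) * T ^ d) H := by
    simp only [ht0]
    exact hH
  have hall : HasSum (fun d : ℤ => (Q.mul d : ℝ) * T ^ d)
      (H + ∑ p ∈ (Finset.HasAntidiagonal.antidiagonal (dvec Q)).erase (0, dvec Q),
        ((nz k ⟨src, tgt⟩ (FV k p.1 0) * sz k ⟨src, tgt⟩ (FV k p.2 1) : ℚ) : ℝ) * T ^ dd Q) := by
    have h1 : HasSum (fun d : ℤ => ∑ p ∈ (Finset.HasAntidiagonal.antidiagonal (dvec Q)).erase
        (0, dvec Q), (t p d : ℝ) * T ^ d)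
        (∑ p ∈ (Finset.HasAntidiagonal.antidiagonal (dvec Q)).erase (0, dvec Q),
          ((nz k ⟨src, tgt⟩ (FV k p.1 0) * sz k ⟨src, tgt⟩ (FV k p.2 1) : ℚ) : ℝ) * T ^ dd Q) := by
      apply hasSum_sum
      intro p hp
      rw [Finset.mem_erase] at hp
      exact hterm p hp.2 hp.1
    have h2 := hT0.add h1
    convert h2 using 1
    funext d
    rw [hrec' d, ← Finset.add_sum_erase _ _ hmem0]
    push_cast
    rw [add_mul, Finset.sum_mul]
  have huniq := hall.unique hfrQ
  have hnz := nz_rec (k := k) (Q := ⟨src, tgt⟩) (dvec Q) 1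
  rw [← Finset.add_sum_erase _ _ hmem0, nz_zero, one_mul] at hnz
  have hfin : H = (sz k ⟨src, tgt⟩ (FV k (dvec Q) 1) : ℝ) * T ^ dd Q := by
    rw [hnz] at huniq
    push_cast at huniq
    rw [← Finset.sum_mul] at huniq
    push_cast at huniq
    linarith
  rw [hfin] at hH
  exact hH

end Vale.Agent.P291.N5
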